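import Mathlib

/-!
Helper lemmas (helper79) for the prism case of P237 (proof report of helper98, Step 3):
pure algebra in real coordinates.  `a`, `b` orthonormal, `u` a unit vector perpendicular to both;
then `u = ± a × b`, hence the two absolute-value identities below.
-/

namespace Vale.Agent.Lib.P237.H79

/-- `u = s • (a × b)` with `s = ⟨u, a × b⟩`, coordinatewise, and `s ^ 2 = 1`. -/
theorem unit_perp_eq_cross (a0 a1 a2 b0 b1 b2 u0 u1 u2 : ℝ)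
    (ha : a0 ^ 2 + a1 ^ 2 + a2 ^ 2 = 1) (hb : b0 ^ 2 + b1 ^ 2 + b2 ^ 2 = 1)
    (hab : a0 * b0 + a1 * b1 + a2 * b2 = 0)
    (hu : u0 ^ 2 + u1 ^ 2 + u2 ^ 2 = 1)
    (hua : u0 * a0 + u1 * a1 + u2 * a2 = 0) (hub : u0 * b0 + u1 * b1 + u2 * b2 = 0) :
    ∃ s : ℝ, s ^ 2 = 1 ∧ u0 = s * (a1 * b2 - a2 * b1) ∧ u1 = s * (a2 * b0 - a0 * b2) ∧
      u2 = s * (a0 * b1 - a1 * b0) := by
  set c0 := a1 * b2 - a2 * b1 with hc0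
  set c1 := a2 * b0 - a0 * b2 with hc1
  set c2 := a0 * b1 - a1 * b0 with hc2
  have hc : c0 ^ 2 + c1 ^ 2 + c2 ^ 2 = 1 := by
    have : c0 ^ 2 + c1 ^ 2 + c2 ^ 2 =
        (a0 ^ 2 + a1 ^ 2 + a2 ^ 2) * (b0 ^ 2 + b1 ^ 2 + b2 ^ 2) - (a0 * b0 + a1 * b1 + a2 * b2) ^ 2 := by
      rw [hc0, hc1, hc2]; ring
    rw [this, ha, hb, hab]; norm_num
  -- u × c = a (u·b) - b (u·a) = 0
  have hx0 : u1 * c2 - u2 * c1 = 0 := by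
    have : u1 * c2 - u2 * c1 =
        a0 * (u0 * b0 + u1 * b1 + u2 * b2) - b0 * (u0 * a0 + u1 * a1 + u2 * a2) := by
      rw [hc1, hc2]; ring
    rw [this, hua, hub]; ring
  have hx1 : u2 * c0 - u0 * c2 = 0 := by
    have : u2 * c0 - u0 * c2 =
        a1 * (u0 * b0 + u1 * b1 + u2 * b2) - b1 * (u0 * a0 + u1 * a1 + u2 * a2) := by
      rw [hc0, hc2]; ring
    rw [this, hua, hub]; ring
  have hx2 : u0 * c1 - u1 * c0 = 0 := by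
    have : u0 * c1 - u1 * c0 =
        a2 * (u0 * b0 + u1 * b1 + u2 * b2) - b2 * (u0 * a0 + u1 * a1 + u2 * a2) := by
      rw [hc0, hc1]; ring
    rw [this, hua, hub]; ring
  refine ⟨u0 * c0 + u1 * c1 + u2 * c2, ?_, ?_, ?_, ?_⟩
  · have : (u0 * c0 + u1 * c1 + u2 * c2) ^ 2 =
        (u0 ^ 2 + u1 ^ 2 + u2 ^ 2) * (c0 ^ 2 + c1 ^ 2 + c2 ^ 2)
          - ((u1 * c2 - u2 * c1) ^ 2 + (u2 * c0 - u0 * c2) ^ 2 + (u0 * c1 - u1 * c0) ^ 2) := by ring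
    rw [this, hu, hc, hx0, hx1, hx2]; norm_num
  · have : u0 = (u0 * c0 + u1 * c1 + u2 * c2) * c0
        + (c1 * (u0 * c1 - u1 * c0) - c2 * (u2 * c0 - u0 * c2))
        + u0 * (1 - (c0 ^ 2 + c1 ^ 2 + c2 ^ 2)) := by ring
    rw [hx1, hx2, hc] at this; linarith
  · have : u1 = (u0 * c0 + u1 * c1 + u2 * c2) * c1
        + (c2 * (u1 * c2 - u2 * c1) - c0 * (u0 * c1 - u1 * c0))
        + u1 * (1 - (c0 ^ 2 + c1 ^ 2 + c2 ^ 2)) := by ring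
    rw [hx0, hx2, hc] at this; linarith
  · have : u2 = (u0 * c0 + u1 * c1 + u2 * c2) * c2
        + (c0 * (u2 * c0 - u0 * c2) - c1 * (u1 * c2 - u2 * c1))
        + u2 * (1 - (c0 ^ 2 + c1 ^ 2 + c2 ^ 2)) := by ring
    rw [hx0, hx1, hc] at this; linarith

/-- `|u2| = |a0 b1 - a1 b0|`. -/
theorem abs_u2 (a0 a1 a2 b0 b1 b2 u0 u1 u2 : ℝ)
    (ha : a0 ^ 2 + a1 ^ 2 + a2 ^ 2 = 1) (hb : b0 ^ 2 + b1 ^ 2 + b2 ^ 2 = 1)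
    (hab : a0 * b0 + a1 * b1 + a2 * b2 = 0)
    (hu : u0 ^ 2 + u1 ^ 2 + u2 ^ 2 = 1)
    (hua : u0 * a0 + u1 * a1 + u2 * a2 = 0) (hub : u0 * b0 + u1 * b1 + u2 * b2 = 0) :
    |u2| = |a0 * b1 - a1 * b0| := by
  obtain ⟨s, hs, -, -, h2⟩ := unit_perp_eq_cross a0 a1 a2 b0 b1 b2 u0 u1 u2 ha hb hab hu hua hub
  have hs1 : |s| = 1 := by
    have : |s| ^ 2 = 1 := by rw [sq_abs]; exact hs
    have h0 : 0 ≤ |s| := abs_nonneg s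
    nlinarith [this, h0]
  rw [h2, abs_mul, hs1, one_mul]

/-- `|d0 u1 - d1 u0| = |a2 (b0 d0 + b1 d1) - b2 (a0 d0 + a1 d1)|`. -/
theorem abs_cross_d (a0 a1 a2 b0 b1 b2 u0 u1 u2 d0 d1 : ℝ)
    (ha : a0 ^ 2 + a1 ^ 2 + a2 ^ 2 = 1) (hb : b0 ^ 2 + b1 ^ 2 + b2 ^ 2 = 1)
    (hab : a0 * b0 + a1 * b1 + a2 * b2 = 0)
    (hu : u0 ^ 2 + u1 ^ 2 + u2 ^ 2 = 1)
    (hua : u0 * a0 + u1 * a1 + u2 * a2 = 0) (hub : u0 * b0 + u1 * b1 + u2 * b2 = 0) :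
    |d0 * u1 - d1 * u0| = |a2 * (b0 * d0 + b1 * d1) - b2 * (a0 * d0 + a1 * d1)| := by
  obtain ⟨s, hs, h0, h1, -⟩ := unit_perp_eq_cross a0 a1 a2 b0 b1 b2 u0 u1 u2 ha hb hab hu hua hub
  have hs1 : |s| = 1 := by
    have : |s| ^ 2 = 1 := by rw [sq_abs]; exact hs
    have h0 : 0 ≤ |s| := abs_nonneg s
    nlinarith [this, h0]
  have : d0 * u1 - d1 * u0 = s * (a2 * (b0 * d0 + b1 * d1) - b2 * (a0 * d0 + a1 * d1)) := by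
    rw [h0, h1]; ring
  rw [this, abs_mul, hs1, one_mul]

end Vale.Agent.Lib.P237.H79
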