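import Mathlib
import Vale.Agent.Lib.P237.helper79.Step3

/-!
Helper lemma (helper79) for the prism case of P237 (proof report of helper98, Step 4):
every point `x` of the set `Z` satisfies the support inequality of the projection body of the
prism `D x [0,h]`, given the area bound of Step 2 (taken as a hypothesis `H2`, in the
definition-free form announced by helper41).
-/

open MeasureTheory Set

namespace Vale.Agent.Lib.P237.H79

/-- coordinates of the inner product of `EuclideanSpace ℝ (Fin 3)` -/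
theorem inner_fin3 (x y : EuclideanSpace ℝ (Fin 3)) :
    inner ℝ x y = x 0 * y 0 + x 1 * y 1 + x 2 * y 2 := by
  simp [PiLp.inner_apply, Fin.sum_univ_three]
  ring

theorem norm_one_fin3 (a : EuclideanSpace ℝ (Fin 3)) (ha : ‖a‖ = 1) :
    a 0 ^ 2 + a 1 ^ 2 + a 2 ^ 2 = 1 := by
  have h := real_inner_self_eq_norm_sq a
  rw [ha, inner_fin3] at h
  nlinarith [h]

/-- the prism over `D` of height `h` is compact -/
theorem prism_compact (D : Set (ℝ × ℝ)) (hD : IsCompact D) (h : ℝ) :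
    IsCompact {y : EuclideanSpace ℝ (Fin 3) | (y 0, y 1) ∈ D ∧ 0 ≤ y 2 ∧ y 2 ≤ h} := by
  have hc : IsCompact ((fun p : (ℝ × ℝ) × ℝ =>
      ((WithLp.toLp 2 ![p.1.1, p.1.2, p.2] : EuclideanSpace ℝ (Fin 3)))) '' (D ×ˢ Icc (0:ℝ) h)) := by
    refine (hD.prod isCompact_Icc).image ?_
    have : Continuous (fun p : (ℝ × ℝ) × ℝ => ![p.1.1, p.1.2, p.2]) := by
      refine continuous_pi ?_
      intro i
      fin_cases i <;> simp <;> fun_prop
    exact (PiLp.continuous_toLp 2 _).comp this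
  convert hc using 1
  ext y
  constructor
  · rintro ⟨h1, h2, h3⟩
    refine ⟨((y 0, y 1), y 2), ⟨h1, h2, h3⟩, ?_⟩
    ext i
    fin_cases i <;> simp
  · rintro ⟨⟨⟨p1, p2⟩, t⟩, ⟨h1, h2, h3⟩, rfl⟩
    refine ⟨?_, ?_, ?_⟩
    · simpa using h1
    · simpa using h2
    · simpa using h3

/-- **Step 4.** -/
theorem step4 (D : Set (ℝ × ℝ)) (hD : IsCompact D) (h : ℝ) (hh : 0 ≤ h)
    (a b u : EuclideanSpace ℝ (Fin 3)) (p q : ℝ × ℝ)
    (H2 : ENNReal.ofReal |a 0 * b 1 - a 1 * b 0| * volume D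
        + ENNReal.ofReal (h * |a 2 * (b 0 * (p.1 - q.1) + b 1 * (p.2 - q.2))
            - b 2 * (a 0 * (p.1 - q.1) + a 1 * (p.2 - q.2))|)
        ≤ volume ((fun y : EuclideanSpace ℝ (Fin 3) => (inner ℝ y a, inner ℝ y b)) ''
            {y : EuclideanSpace ℝ (Fin 3) | (y 0, y 1) ∈ D ∧ 0 ≤ y 2 ∧ y 2 ≤ h}))
    (x : EuclideanSpace ℝ (Fin 3))
    (hx0 : x 0 = -h * (p.2 - q.2)) (hx1 : x 1 = h * (p.1 - q.1))
    (hx2 : |x 2| ≤ (volume D).toReal)
    (ha : ‖a‖ = 1) (hb : ‖b‖ = 1) (hab : inner ℝ a b = 0)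
    (hu : ‖u‖ = 1) (hua : inner ℝ u a = 0) (hub : inner ℝ u b = 0) :
    inner ℝ x u ≤ (volume ((fun y : EuclideanSpace ℝ (Fin 3) => (inner ℝ y a, inner ℝ y b)) ''
            {y : EuclideanSpace ℝ (Fin 3) | (y 0, y 1) ∈ D ∧ 0 ≤ y 2 ∧ y 2 ≤ h})).toReal := by
  set K : Set (EuclideanSpace ℝ (Fin 3)) := {y | (y 0, y 1) ∈ D ∧ 0 ≤ y 2 ∧ y 2 ≤ h} with hK
  have hKc : IsCompact K := prism_compact D hD h
  have himc : IsCompact ((fun y : EuclideanSpace ℝ (Fin 3) => (inner ℝ y a, inner ℝ y b)) '' K) :=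
    hKc.image (by fun_prop)
  have hfin : volume ((fun y : EuclideanSpace ℝ (Fin 3) => (inner ℝ y a, inner ℝ y b)) '' K) ≠ ⊤ :=
    himc.measure_lt_top.ne
  have hDfin : volume D ≠ ⊤ := hD.measure_lt_top.ne
  -- coordinates
  have ha' := norm_one_fin3 a ha
  have hb' := norm_one_fin3 b hb
  have hu' := norm_one_fin3 u hu
  rw [inner_fin3] at hab hua hub
  have e1 := abs_u2 (a 0) (a 1) (a 2) (b 0) (b 1) (b 2) (u 0) (u 1) (u 2) ha' hb' hab hu' hua hub
  have e2 := abs_cross_d (a 0) (a 1) (a 2) (b 0) (b 1) (b 2) (u 0) (u 1) (u 2)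
    (p.1 - q.1) (p.2 - q.2) ha' hb' hab hu' hua hub
  -- real form of H2
  have h3 := ENNReal.toReal_mono hfin H2
  rw [ENNReal.toReal_add (ENNReal.mul_ne_top ENNReal.ofReal_ne_top hDfin) ENNReal.ofReal_ne_top,
    ENNReal.toReal_mul, ENNReal.toReal_ofReal (abs_nonneg _),
    ENNReal.toReal_ofReal (mul_nonneg hh (abs_nonneg _))] at h3
  refine le_trans ?_ h3
  rw [inner_fin3, hx0, hx1]
  have hV : 0 ≤ (volume D).toReal := ENNReal.toReal_nonneg
  have t1 : x 2 * u 2 ≤ |a 0 * b 1 - a 1 * b 0| * (volume D).toReal := by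
    rw [← e1]
    calc x 2 * u 2 ≤ |x 2 * u 2| := le_abs_self _
      _ = |x 2| * |u 2| := abs_mul _ _
      _ ≤ (volume D).toReal * |u 2| := mul_le_mul_of_nonneg_right hx2 (abs_nonneg _)
      _ = |u 2| * (volume D).toReal := mul_comm _ _
  have t2 : h * ((p.1 - q.1) * u 1 - (p.2 - q.2) * u 0)
      ≤ h * |a 2 * (b 0 * (p.1 - q.1) + b 1 * (p.2 - q.2))
            - b 2 * (a 0 * (p.1 - q.1) + a 1 * (p.2 - q.2))| := by
    rw [← e2]
    exact mul_le_mul_of_nonneg_left (le_abs_self _) hh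
  nlinarith [t1, t2]

end Vale.Agent.Lib.P237.H79
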