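import Mathlib
import Vale.Agent.Lib.P243.CapBM

/-!
Helper lemma (helper79) for the prism case of P237 (proof report of helper98, Step 5a):
for a compact planar set `D` and a real `h`, the set
`W = {(-(h (p.2 - q.2)), h (p.1 - q.1)) : p, q ∈ D}` (a quarter turn of `h (D - D)`) has area at
least `4 h ^ 2 |D|`.  Midpoint Brunn-Minkowski in the plane (`Lib/P243/CapBM`, `bm_mid`) applied
to `L D`, `-L D` and `(1/2) W`, where `L p = (-h p.2, h p.1)`.
-/

open MeasureTheory Set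

namespace Vale.Agent.Lib.P237.H79

/-- linear map `(x, y) ↦ x • v + y • w` on the plane -/
noncomputable def linMap (v w : ℝ × ℝ) : (ℝ × ℝ) →ₗ[ℝ] (ℝ × ℝ) :=
  (LinearMap.fst ℝ ℝ ℝ).smulRight v + (LinearMap.snd ℝ ℝ ℝ).smulRight w

theorem linMap_apply (v w p : ℝ × ℝ) : linMap v w p = p.1 • v + p.2 • w := by
  simp [linMap]

theorem det_linMap (v w : ℝ × ℝ) : LinearMap.det (linMap v w) = v.1 * w.2 - v.2 * w.1 := by
  rw [← LinearMap.det_toMatrix (Module.Basis.finTwoProd ℝ)]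
  rw [Matrix.det_fin_two]
  simp [LinearMap.toMatrix_apply, linMap_apply, Module.Basis.finTwoProd]
  ring

/-- area of a linear image in the plane -/
theorem vol_linMap_image (v w : ℝ × ℝ) (S : Set (ℝ × ℝ)) :
    volume ((fun p : ℝ × ℝ => p.1 • v + p.2 • w) '' S)
      = ENNReal.ofReal |v.1 * w.2 - v.2 * w.1| * volume S := by
  have h := Measure.addHaar_image_linearMap (volume : Measure (ℝ × ℝ)) (linMap v w) S
  have h2 : (fun p : ℝ × ℝ => p.1 • v + p.2 • w) = fun p => linMap v w p := by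
    funext p; rw [linMap_apply]
  rw [h2, h, det_linMap]

/-- **Step 5a.** -/
theorem stepW (D : Set (ℝ × ℝ)) (hD : IsCompact D) (h : ℝ) :
    4 * ENNReal.ofReal (h ^ 2) * volume D ≤
      volume {w : ℝ × ℝ | ∃ p ∈ D, ∃ q ∈ D, w = (-(h * (p.2 - q.2)), h * (p.1 - q.1))} := by
  set W : Set (ℝ × ℝ) := {w : ℝ × ℝ | ∃ p ∈ D, ∃ q ∈ D, w = (-(h * (p.2 - q.2)), h * (p.1 - q.1))}
    with hW
  -- the three sets
  set U : Set (ℝ × ℝ) := (fun p : ℝ × ℝ => p.1 • ((0:ℝ), h) + p.2 • (-h, (0:ℝ))) '' D with hU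
  set V : Set (ℝ × ℝ) := (fun p : ℝ × ℝ => p.1 • ((0:ℝ), -h) + p.2 • (h, (0:ℝ))) '' D with hV
  set Z : Set (ℝ × ℝ) :=
    (fun p : ℝ × ℝ => p.1 • ((1/2:ℝ), (0:ℝ)) + p.2 • ((0:ℝ), (1/2:ℝ))) '' W with hZ
  have hWc : IsCompact W := by
    have : W = (fun z : (ℝ × ℝ) × (ℝ × ℝ) => (-(h * (z.1.2 - z.2.2)), h * (z.1.1 - z.2.1))) ''
        (D ×ˢ D) := by
      ext w
      constructor
      · rintro ⟨p, hp, q, hq, rfl⟩
        exact ⟨(p, q), ⟨hp, hq⟩, rfl⟩
      · rintro ⟨⟨p, q⟩, ⟨hp, hq⟩, rfl⟩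
        exact ⟨p, hp, q, hq, rfl⟩
    rw [this]
    exact (hD.prod hD).image (by fun_prop)
  have hUm : MeasurableSet U := (hD.image (by fun_prop)).isClosed.measurableSet
  have hVm : MeasurableSet V := (hD.image (by fun_prop)).isClosed.measurableSet
  have hZm : MeasurableSet Z := (hWc.image (by fun_prop)).isClosed.measurableSet
  have H : ∀ x ∈ U, ∀ y ∈ V, (1 / 2 : ℝ) • (x + y) ∈ Z := by
    rintro x ⟨p, hp, rfl⟩ y ⟨q, hq, rfl⟩
    refine ⟨(-(h * (p.2 - q.2)), h * (p.1 - q.1)), ⟨p, hp, q, hq, rfl⟩, ?_⟩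
    ext <;> simp <;> ring
  have hbm := Vale.Agent.Lib.P243.Cap.bm_mid U V Z hUm hVm hZm H
  have hUv : volume U = ENNReal.ofReal (h ^ 2) * volume D := by
    rw [hU, vol_linMap_image]
    congr 2
    have : (0:ℝ) * 0 - h * -h = h ^ 2 := by ring
    simp only [this]
    exact abs_of_nonneg (sq_nonneg h)
  have hVv : volume V = ENNReal.ofReal (h ^ 2) * volume D := by
    rw [hV, vol_linMap_image]
    congr 2
    have : (0:ℝ) * 0 - -h * h = h ^ 2 := by ring
    simp only [this]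
    exact abs_of_nonneg (sq_nonneg h)
  have hZv : volume Z = ENNReal.ofReal (1 / 4) * volume W := by
    rw [hZ, vol_linMap_image]
    congr 2
    norm_num
  rw [hUv, hVv, hZv, ← sq] at hbm
  have hle : ENNReal.ofReal (h ^ 2) * volume D ≤ ENNReal.ofReal (1 / 4) * volume W := by
    by_contra hcon
    have hlt := not_le.mp hcon
    have := ENNReal.pow_lt_pow_left (n := 2) (two_ne_zero) hlt
    exact absurd hbm (not_le.mpr this)
  calc 4 * ENNReal.ofReal (h ^ 2) * volume D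
      = 4 * (ENNReal.ofReal (h ^ 2) * volume D) := by ring
    _ ≤ 4 * (ENNReal.ofReal (1 / 4) * volume W) := by gcongr
    _ = (4 * ENNReal.ofReal (1 / 4)) * volume W := by ring
    _ = volume W := by
        have : (4 : ENNReal) * ENNReal.ofReal (1 / 4) = 1 := by
          have h4 : (4 : ENNReal) = ENNReal.ofReal 4 := by
            rw [show (4 : ℝ) = ((4 : ℕ) : ℝ) by norm_num, ENNReal.ofReal_natCast]; norm_num
          rw [h4, ← ENNReal.ofReal_mul (by norm_num)]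
          norm_num
        rw [this, one_mul]

end Vale.Agent.Lib.P237.H79
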